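import Vale.Agent.P174.LE

/-!
# P174: Howie's conjecture passes to locally residual groups

If for every nontrivial `g` in `G` and every finite subset `S` of `G` there are a group `H` over
which every nonsingular finite system is solvable and a map `φ : G → H` which is multiplicative
on `S` and satisfies `φ g ≠ 1`, then every nonsingular finite system over `G` is solvable over `G`.
-/

namespace Vale.Agent.Results.P174.LocalResidual

universe u

theorem result (G : Type u) [Group G]
    (h : ∀ g : G, g ≠ 1 → ∀ S : Finset G, ∃ (H : Type u) (_ : Group H) (φ : G → H),
      φ g ≠ 1 ∧ (∀ x ∈ S, ∀ y ∈ S, φ (x * y) = φ x * φ y) ∧ _root_.P174.Howie H) :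
    _root_.P174.Howie G :=
  _root_.P174.howie_local h

end Vale.Agent.Results.P174.LocalResidual
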